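import Vale.Agent.P120.Bdl.B4

open MeasureTheory

namespace Vale.Agent.Results.P120.DavidSemmes

open Vale.Agent.P120

/-- **The David-Semmes problem for Riesz transforms.** -/
theorem result (n d : ℕ) (hn : 1 ≤ n) (hnd : n < d) (μ : Measure (Eu d))
    (hloc : IsLocallyFiniteMeasure μ) (hreg : ADRegular n μ) (hbdd : RieszBounded n μ) :
    UniformlyRectifiable n μ :=
  main n d hn hnd μ hloc hreg hbdd

end Vale.Agent.Results.P120.DavidSemmes
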